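import Vale.Agent.P075.Analysis.Step

/-!
P075, analysis module: admissible inputs are limits of bounded step inputs, and the form
passes to the limit.
-/

open MeasureTheory Set Filter Topology

noncomputable section

namespace Vale.Agent.P075

/-- The closed quadrant. -/
def quad : Set (ℝ × ℝ) := Ici (0:ℝ) ×ˢ Ici (0:ℝ)

/-- On the quadrant, `F` vanishes outside `[0,R)^2`. -/
def InBox (R : ℝ) (F : ℝ × ℝ → ℝ) : Prop :=
  ∀ p : ℝ × ℝ, 0 ≤ p.1 → 0 ≤ p.2 → (R ≤ p.1 ∨ R ≤ p.2) → F p = 0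

/-- `G i` tends to `F` almost everywhere on the quadrant. -/
def TendsToOnQuad (G : ℕ → ℝ × ℝ → ℝ) (F : ℝ × ℝ → ℝ) : Prop :=
  ∀ᵐ p : ℝ × ℝ, 0 ≤ p.1 → 0 ≤ p.2 → Tendsto (fun i => G i p) atTop (𝓝 (F p))

lemma qmp01 : Measure.QuasiMeasurePreserving (fun x : ℝ × ℝ × ℝ => (x.1, x.2.1))
    volume volume := by
  have h : MeasurePreserving (MeasurableEquiv.prodAssoc : (ℝ × ℝ) × ℝ ≃ᵐ ℝ × ℝ × ℝ)
      ((volume.prod volume).prod volume) (volume.prod (volume.prod volume)) :=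
    measurePreserving_prodAssoc _ _ _
  simp only [Measure.volume_eq_prod]
  exact (Measure.quasiMeasurePreserving_fst).comp (h.symm _).quasiMeasurePreserving

lemma qmp12 : Measure.QuasiMeasurePreserving (fun x : ℝ × ℝ × ℝ => (x.2.1, x.2.2))
    volume volume := by
  simp only [Measure.volume_eq_prod]
  exact Measure.quasiMeasurePreserving_snd

lemma qmp20 : Measure.QuasiMeasurePreserving (fun x : ℝ × ℝ × ℝ => (x.2.2, x.1))
    volume volume := by
  have hswap : MeasurePreserving (Prod.swap : ℝ × (ℝ × ℝ) → (ℝ × ℝ) × ℝ)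
      (volume.prod (volume.prod volume)) ((volume.prod volume).prod volume) :=
    Measure.measurePreserving_swap
  have h : MeasurePreserving (MeasurableEquiv.prodAssoc : (ℝ × ℝ) × ℝ ≃ᵐ ℝ × ℝ × ℝ)
      ((volume.prod volume).prod volume) (volume.prod (volume.prod volume)) :=
    measurePreserving_prodAssoc _ _ _
  simp only [Measure.volume_eq_prod]
  exact (Measure.quasiMeasurePreserving_snd).comp (h.comp hswap).quasiMeasurePreserving

lemma haar_prod_eq_zero_of_le {k : ℤ} {n N : ℕ} {R u : ℝ} (hN : R ≤ (2:ℝ) ^ k * N) (hn : N ≤ n)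
    (hu : u < R) : haar k n u = 0 := by
  refine haar_eq_zero_of_notMem fun h => ?_
  have : (2:ℝ) ^ k * N ≤ (2:ℝ) ^ k * n :=
    mul_le_mul_of_nonneg_left (by exact_mod_cast hn) (two_zpow_pos k).le
  linarith [h.1]

/-- Indices beyond the box do not contribute. -/
lemma LTerm_eq_zero {R : ℝ} {F₀ F₁ F₂ : ℝ × ℝ → ℝ} (h0 : InBox R F₀) (h1 : InBox R F₁)
    {k : ℤ} {N n₀ n₁ n₂ : ℕ} (hN : R ≤ (2:ℝ) ^ k * N) (h : N ≤ n₀ ∨ N ≤ n₁ ∨ N ≤ n₂) :
    LTerm k F₀ F₁ F₂ n₀ n₁ n₂ = 0 := by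
  unfold LTerm
  have : ∀ x : ℝ × ℝ × ℝ, F₀ (x.1, x.2.1) * F₁ (x.2.1, x.2.2) * F₂ (x.2.2, x.1) *
      (haar k n₀ x.1 * haar k n₁ x.2.1 * haar k n₂ x.2.2) = 0 := by
    rintro ⟨p, q, r⟩
    dsimp only
    rcases lt_or_ge p 0 with hp | hp
    · simp [haar_eq_zero_of_neg hp]
    rcases lt_or_ge q 0 with hq | hq
    · simp [haar_eq_zero_of_neg hq]
    rcases lt_or_ge r 0 with hr | hr
    · simp [haar_eq_zero_of_neg hr]
    rcases lt_or_ge p R with hpR | hpR
    · rcases lt_or_ge q R with hqR | hqR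
      · rcases lt_or_ge r R with hrR | hrR
        · rcases h with h | h | h
          · simp [haar_prod_eq_zero_of_le hN h hpR]
          · simp [haar_prod_eq_zero_of_le hN h hqR]
          · simp [haar_prod_eq_zero_of_le hN h hrR]
        · simp [h1 (q, r) hq hr (Or.inr hrR)]
      · simp [h0 (p, q) hp hq (Or.inr hqR)]
    · simp [h0 (p, q) hp hq (Or.inl hpR)]
  simp [this]

/-- One summand passes to the limit. -/
lemma tendsto_LTerm {B : ℝ} {G₀ G₁ G₂ : ℕ → ℝ × ℝ → ℝ} {F₀ F₁ F₂ : ℝ × ℝ → ℝ}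
    (m0 : ∀ i, Measurable (G₀ i)) (m1 : ∀ i, Measurable (G₁ i)) (m2 : ∀ i, Measurable (G₂ i))
    (b0 : ∀ i p, |G₀ i p| ≤ B) (b1 : ∀ i p, |G₁ i p| ≤ B) (b2 : ∀ i p, |G₂ i p| ≤ B)
    (t0 : TendsToOnQuad G₀ F₀) (t1 : TendsToOnQuad G₁ F₁) (t2 : TendsToOnQuad G₂ F₂)
    (k : ℤ) (n₀ n₁ n₂ : ℕ) :
    Tendsto (fun i => LTerm k (G₀ i) (G₁ i) (G₂ i) n₀ n₁ n₂) atTop
      (𝓝 (LTerm k F₀ F₁ F₂ n₀ n₁ n₂)) := by
  unfold LTerm
  refine Tendsto.const_mul _ ?_
  set J : ℕ → Set ℝ := fun n => Ico ((2:ℝ) ^ k * n) ((2:ℝ) ^ k * (n + 1)) with hJ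
  have hB : 0 ≤ B := le_trans (abs_nonneg _) (b0 0 0)
  refine tendsto_integral_of_dominated_convergence
    ((J n₀ ×ˢ J n₁ ×ˢ J n₂).indicator fun _ => B * B * B) (fun i => ?_) ?_ (fun i => ?_) ?_
  · have hh := measurable_haar k
    have := m0 i
    have := m1 i
    have := m2 i
    exact Measurable.aestronglyMeasurable (by fun_prop)
  · refine (integrableOn_const ?_).integrable_indicator
      (measurableSet_Ico.prod (measurableSet_Ico.prod measurableSet_Ico))
    simp only [Measure.volume_eq_prod, Measure.prod_prod, hJ, Real.volume_Ico]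
    exact ENNReal.mul_ne_top ENNReal.ofReal_ne_top
      (ENNReal.mul_ne_top ENNReal.ofReal_ne_top ENNReal.ofReal_ne_top)
  · refine Eventually.of_forall ?_
    rintro ⟨p, q, r⟩
    rw [Real.norm_eq_abs]
    by_cases h : (p, q, r) ∈ J n₀ ×ˢ J n₁ ×ˢ J n₂
    · rw [Set.indicator_of_mem h]
      simp only [abs_mul]
      calc |G₀ i (p, q)| * |G₁ i (q, r)| * |G₂ i (r, p)| *
          (|haar k n₀ p| * |haar k n₁ q| * |haar k n₂ r|)
          ≤ B * B * B * (1 * 1 * 1) := by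
            gcongr
            · exact b0 _ _
            · exact b1 _ _
            · exact b2 _ _
            · exact abs_haar_le _ _ _
            · exact abs_haar_le _ _ _
            · exact abs_haar_le _ _ _
        _ = B * B * B := by ring
    · rw [Set.indicator_of_notMem h]
      simp only [mem_prod, hJ] at h
      rcases not_and_or.1 h with h' | h'
      · simp [haar_eq_zero_of_notMem h']
      · rcases not_and_or.1 h' with h'' | h'' <;> simp [haar_eq_zero_of_notMem h'']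
  · filter_upwards [qmp01.ae t0, qmp12.ae t1, qmp20.ae t2] with x hx0 hx1 hx2
    rcases lt_or_ge x.1 0 with hp | hp
    · simp [haar_eq_zero_of_neg hp]
    rcases lt_or_ge x.2.1 0 with hq | hq
    · simp [haar_eq_zero_of_neg hq]
    rcases lt_or_ge x.2.2 0 with hr | hr
    · simp [haar_eq_zero_of_neg hr]
    exact (((hx0 hp hq).mul (hx1 hq hr)).mul (hx2 hr hp)).mul_const _

/-- The form passes to the limit. -/
lemma tendsto_dyadicForm {R B : ℝ} {G₀ G₁ G₂ : ℕ → ℝ × ℝ → ℝ} {F₀ F₁ F₂ : ℝ × ℝ → ℝ}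
    (m0 : ∀ i, Measurable (G₀ i)) (m1 : ∀ i, Measurable (G₁ i)) (m2 : ∀ i, Measurable (G₂ i))
    (b0 : ∀ i p, |G₀ i p| ≤ B) (b1 : ∀ i p, |G₁ i p| ≤ B) (b2 : ∀ i p, |G₂ i p| ≤ B)
    (t0 : TendsToOnQuad G₀ F₀) (t1 : TendsToOnQuad G₁ F₁) (t2 : TendsToOnQuad G₂ F₂)
    (x0 : ∀ i, InBox R (G₀ i)) (x1 : ∀ i, InBox R (G₁ i))
    (y0 : InBox R F₀) (y1 : InBox R F₁) (S : Finset ℤ) (ε : ℤ → ℝ) :
    Tendsto (fun i => dyadicForm S ε (G₀ i) (G₁ i) (G₂ i)) atTop
      (𝓝 (dyadicForm S ε F₀ F₁ F₂)) := by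
  classical
  unfold dyadicForm
  refine tendsto_finsetSum _ fun k _ => Tendsto.const_mul _ ?_
  obtain ⟨N, hN⟩ : ∃ N : ℕ, R ≤ (2:ℝ) ^ k * N := by
    refine ⟨⌈R / (2:ℝ) ^ k⌉₊, ?_⟩
    have := Nat.le_ceil (R / (2:ℝ) ^ k)
    rwa [div_le_iff₀ (two_zpow_pos k), mul_comm] at this
  set T : Finset XorTriple := (Finset.range N ×ˢ Finset.range N ×ˢ Finset.range N).subtype _
    with hT
  have hout : ∀ t : XorTriple, t ∉ T → N ≤ t.1.1 ∨ N ≤ t.1.2.1 ∨ N ≤ t.1.2.2 := fun t ht => by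
    simp [hT, Finset.mem_subtype] at ht
    omega
  rw [tsum_eq_sum (s := T) fun t ht => LTerm_eq_zero y0 y1 hN (hout t ht)]
  refine Tendsto.congr (fun i => (tsum_eq_sum (s := T)
    fun t ht => LTerm_eq_zero (x0 i) (x1 i) hN (hout t ht)).symm) ?_
  exact tendsto_finsetSum _ fun t _ => tendsto_LTerm m0 m1 m2 b0 b1 b2 t0 t1 t2 _ _ _ _

/-- The cubed norms pass to the limit. -/
lemma tendsto_integral_cube {R B : ℝ} {G : ℕ → ℝ × ℝ → ℝ} {F : ℝ × ℝ → ℝ}
    (hm : ∀ i, Measurable (G i)) (hb : ∀ i p, |G i p| ≤ B) (ht : TendsToOnQuad G F)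
    (hx : ∀ i, InBox R (G i)) :
    Tendsto (fun i => ∫ p in Ici (0:ℝ) ×ˢ Ici (0:ℝ), |G i p| ^ 3) atTop
      (𝓝 (∫ p in Ici (0:ℝ) ×ˢ Ici (0:ℝ), |F p| ^ 3)) := by
  have hB : 0 ≤ B := le_trans (abs_nonneg _) (hb 0 0)
  have hQ : MeasurableSet (Ici (0:ℝ) ×ˢ Ici (0:ℝ)) := measurableSet_Ici.prod measurableSet_Ici
  refine tendsto_integral_of_dominated_convergence
    ((Ico (0:ℝ) R ×ˢ Ico (0:ℝ) R).indicator fun _ => B ^ 3) (fun i => ?_) ?_ (fun i => ?_) ?_
  · have := hm i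
    exact Measurable.aestronglyMeasurable (by fun_prop)
  · refine ((integrableOn_const ?_).integrable_indicator
      (measurableSet_Ico.prod measurableSet_Ico)).integrableOn
    simp only [Measure.volume_eq_prod, Measure.prod_prod, Real.volume_Ico]
    exact ENNReal.mul_ne_top ENNReal.ofReal_ne_top ENNReal.ofReal_ne_top
  · filter_upwards [ae_restrict_mem hQ] with p hp
    obtain ⟨hp1, hp2⟩ := hp
    rw [Real.norm_eq_abs, abs_of_nonneg (by positivity)]
    by_cases h : p ∈ Ico (0:ℝ) R ×ˢ Ico (0:ℝ) R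
    · rw [Set.indicator_of_mem h]
      exact pow_le_pow_left₀ (abs_nonneg _) (hb i p) 3
    · rw [Set.indicator_of_notMem h, hx i p hp1 hp2]
      · simp
      · simp only [mem_prod, mem_Ico, mem_Ici] at h hp1 hp2
        by_contra hh
        rw [not_or] at hh
        exact h ⟨⟨hp1, not_le.1 hh.1⟩, hp2, not_le.1 hh.2⟩
  · filter_upwards [ae_restrict_mem hQ, ae_restrict_of_ae ht] with p hp hpt
    exact ((hpt hp.1 hp.2).abs).pow 3

/-- Bounded step approximations. -/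
lemma exists_step_approx {F : ℝ × ℝ → ℝ} {B : ℝ} (hB : 0 ≤ B) (hFm : Measurable F)
    (hFb : ∀ p, |F p| ≤ B) (hFc : HasCompactSupport F) {P : ℤ} (hbox : InBox ((2:ℝ) ^ P) F) :
    ∃ η : ℕ → ℝ, (∀ i, 0 < η i) ∧ ∀ jj : ℕ → ℤ, (∀ i, jj i ≤ P) →
      (∀ i, (2:ℝ) ^ jj i < η i) →
      ∃ a : ℕ → ℕ → ℕ → ℝ, (∀ i x y, |a i x y| ≤ B) ∧
        TendsToOnQuad (fun i => stepF (jj i) (P - jj i).toNat (a i)) F := by
  set Q : Set (ℝ × ℝ) := Ico (0:ℝ) ((2:ℝ) ^ P) ×ˢ Ico (0:ℝ) ((2:ℝ) ^ P) with hQ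
  have hQm : MeasurableSet Q := measurableSet_Ico.prod measurableSet_Ico
  set V : ℝ := ((2:ℝ) ^ P) ^ 2 with hV
  have hVQ : volume.real Q = V := by
    rw [hQ, Measure.volume_eq_prod, measureReal_prod_prod,
      Real.volume_real_Ico_of_le (two_zpow_pos P).le]
    simp [hV, sq]
  have hQfin : volume Q ≠ ⊤ := by
    rw [hQ, Measure.volume_eq_prod, Measure.prod_prod]
    simp only [Real.volume_Ico]
    exact ENNReal.mul_ne_top ENNReal.ofReal_ne_top ENNReal.ofReal_ne_top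
  have hFint : Integrable F := by
    refine (integrableOn_iff_integrable_of_support_subset (subset_tsupport F)).1 ?_
    exact Integrable.mono' (integrableOn_const hFc.measure_lt_top.ne)
      hFm.aestronglyMeasurable (Eventually.of_forall fun p => by
        simpa [Real.norm_eq_abs] using hFb p)
  have hg : ∀ i : ℕ, ∃ g : ℝ × ℝ → ℝ, Continuous g ∧ (∀ p, |g p| ≤ B) ∧
      Integrable (fun p => |F p - g p|) ∧ ∫ p, |F p - g p| ≤ (2⁻¹:ℝ) ^ i := by
    intro i
    obtain ⟨g, -, h2, h3, h4⟩ := hFint.exists_hasCompactSupport_integral_sub_le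
      (ε := (2⁻¹:ℝ) ^ i) (by positivity)
    have hclip : ∀ p, |F p - max (-B) (min B (g p))| ≤ |F p - g p| := fun p => by
      have := abs_le.1 (hFb p)
      rcases le_total B (g p) with h | h
      · rw [min_eq_left h, max_eq_right (by linarith), abs_of_nonpos (by linarith),
          abs_of_nonpos (by linarith)]
        linarith
      · rw [min_eq_right h]
        rcases le_total (-B) (g p) with h' | h'
        · rw [max_eq_right h']
        · rw [max_eq_left h', abs_of_nonneg (by linarith), abs_of_nonneg (by linarith)]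
          linarith
    have hc : Continuous fun p => max (-B) (min B (g p)) := by fun_prop
    have hint : Integrable fun p => |F p - max (-B) (min B (g p))| :=
      Integrable.mono' (hFint.sub h4).norm
        (Measurable.aestronglyMeasurable (by have := hc.measurable; fun_prop))
        (Eventually.of_forall fun p => by
          simpa [Real.norm_eq_abs] using hclip p)
    refine ⟨_, hc, fun p => ?_, hint, ?_⟩
    · rw [abs_le]; exact ⟨le_max_left _ _, max_le (by linarith) (min_le_left _ _)⟩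
    · refine le_trans (integral_mono hint (hFint.sub h4).norm fun p => ?_) h2
      simpa [Real.norm_eq_abs] using hclip p
  choose g hgc hgb hgi hge using hg
  have hη : ∀ i, ∃ η > 0, ∀ p ∈ Icc (0:ℝ) ((2:ℝ) ^ P) ×ˢ Icc (0:ℝ) ((2:ℝ) ^ P),
      ∀ q ∈ Icc (0:ℝ) ((2:ℝ) ^ P) ×ˢ Icc (0:ℝ) ((2:ℝ) ^ P),
      dist p q < η → dist (g i p) (g i q) < (2⁻¹:ℝ) ^ i := fun i =>
    Metric.uniformContinuousOn_iff.1 ((isCompact_Icc.prod isCompact_Icc
      ).uniformContinuousOn_of_continuous (hgc i).continuousOn) _ (by positivity)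
  choose η hηp hηu using hη
  refine ⟨η, hηp, fun jj hjP hjη => ?_⟩
  set a : ℕ → ℕ → ℕ → ℝ := fun i x y => g i ((2:ℝ) ^ jj i * x, (2:ℝ) ^ jj i * y) with ha
  refine ⟨a, fun i x y => hgb i _, ?_⟩
  set G : ℕ → ℝ × ℝ → ℝ := fun i => stepF (jj i) (P - jj i).toNat (a i) with hG
  set D : ℕ → ℝ × ℝ → ℝ := fun i => Q.indicator fun p => |G i p - F p| with hD
  have hclose : ∀ i, ∀ p ∈ Q, |G i p - g i p| ≤ (2⁻¹:ℝ) ^ i := by
    rintro i p ⟨⟨hp1, hp1'⟩, hp2, hp2'⟩
    have hd := two_zpow_pos (jj i)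
    have hP : (2:ℝ) ^ jj i * 2 ^ (P - jj i).toNat = (2:ℝ) ^ P := by
      rw [← zpow_natCast, ← zpow_add₀ (by norm_num)]
      congr 1
      have := hjP i
      omega
    have key : ∀ u : ℝ, 0 ≤ u → u < (2:ℝ) ^ P → ⌊u / 2 ^ jj i⌋₊ < 2 ^ (P - jj i).toNat ∧
        (2:ℝ) ^ jj i * ⌊u / 2 ^ jj i⌋₊ ∈ Icc (0:ℝ) ((2:ℝ) ^ P) ∧
        dist ((2:ℝ) ^ jj i * ⌊u / 2 ^ jj i⌋₊) u < η i := by
      intro u hu hu'
      obtain ⟨e1, e2⟩ := (mem_cell_iff (j := jj i)).2 ⟨hu, rfl⟩
      refine ⟨?_, ⟨by positivity, by linarith⟩, ?_⟩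
      · rw [Nat.floor_lt (div_nonneg hu hd.le), div_lt_iff₀ hd]
        push_cast
        linarith
      · rw [Real.dist_eq, abs_sub_lt_iff]
        have := hjη i
        constructor <;> nlinarith
    obtain ⟨a1, a2, a3⟩ := key p.1 hp1 hp1'
    obtain ⟨b1, b2, b3⟩ := key p.2 hp2 hp2'
    simp only [hG]
    rw [stepF_apply, if_pos ⟨hp1, hp2, a1, b1⟩, ← Real.dist_eq]
    exact (hηu i _ ⟨a2, b2⟩ p ⟨⟨hp1, hp1'.le⟩, hp2, hp2'.le⟩
      (by rw [Prod.dist_eq]; exact max_lt a3 b3)).le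
  have hDm : ∀ i, Measurable (D i) := fun i =>
    (((measurable_stepF _ _ _).sub hFm).norm).indicator hQm
  have hconst : Integrable (Q.indicator fun _ : ℝ × ℝ => (1:ℝ)) :=
    (integrableOn_const hQfin).integrable_indicator hQm
  have hDle : ∀ i p, D i p ≤ (2⁻¹:ℝ) ^ i * Q.indicator (fun _ => (1:ℝ)) p + |F p - g i p| := by
    intro i p
    by_cases hp : p ∈ Q
    · simp only [hD, Set.indicator_of_mem hp, mul_one]
      have := abs_sub_le (G i p) (g i p) (F p)
      rw [abs_sub_comm (g i p) (F p)] at this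
      linarith [hclose i p hp]
    · simp only [hD, Set.indicator_of_notMem hp]
      simpa using abs_nonneg (F p - g i p)
  have hD0 : ∀ i p, 0 ≤ D i p := fun i p => Set.indicator_nonneg (fun q _ => abs_nonneg _) p
  have hDint : ∀ i, ∫ p, D i p ≤ (2⁻¹:ℝ) ^ i * (V + 1) := by
    intro i
    refine le_trans (integral_mono_of_nonneg (Eventually.of_forall (hD0 i))
      ((hconst.const_mul _).add (hgi i)) (Eventually.of_forall (hDle i))) ?_
    simp only [Pi.add_apply]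
    rw [integral_add (hconst.const_mul _) (hgi i), integral_const_mul,
      integral_indicator_const _ hQm, hVQ, smul_eq_mul]
    linarith [hge i]
  have hDI : ∀ i, Integrable (D i) := fun i =>
    Integrable.mono' ((hconst.const_mul _).add (hgi i)) (hDm i).aestronglyMeasurable
      (Eventually.of_forall fun p => by
        rw [Real.norm_eq_abs, abs_of_nonneg (hD0 i p)]; exact hDle i p)
  have hsum : ∀ᵐ p : ℝ × ℝ, Tendsto (fun i => D i p) atTop (𝓝 0) := by
    have hfin : ∫⁻ p, ∑' i, ENNReal.ofReal (D i p) ≠ ⊤ := by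
      rw [lintegral_tsum fun i => (hDm i).ennreal_ofReal.aemeasurable]
      have hs : Summable fun i : ℕ => (2⁻¹:ℝ) ^ i * (V + 1) :=
        (summable_geometric_of_lt_one (by norm_num) (by norm_num)).mul_right _
      have hle : ∀ i, ∫⁻ p, ENNReal.ofReal (D i p) ≤ ENNReal.ofReal ((2⁻¹:ℝ) ^ i * (V + 1)) :=
        fun i => by
          rw [← ofReal_integral_eq_lintegral_ofReal (hDI i) (Eventually.of_forall (hD0 i))]
          exact ENNReal.ofReal_le_ofReal (hDint i)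
      exact ne_top_of_le_ne_top hs.tsum_ofReal_ne_top (ENNReal.tsum_le_tsum hle)
    filter_upwards [ae_lt_top (by fun_prop) hfin] with p hp
    have := (ENNReal.tendsto_toReal ENNReal.zero_ne_top).comp
      (ENNReal.tendsto_atTop_zero_of_tsum_ne_top hp.ne)
    simpa [Function.comp_def, ENNReal.toReal_ofReal (hD0 _ p)] using this
  filter_upwards [hsum] with p hp h1 h2
  by_cases hpQ : p ∈ Q
  · rw [← tendsto_sub_nhds_zero_iff]
    refine squeeze_zero_norm (fun i => ?_) hp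
    simp [hD, hG, Set.indicator_of_mem hpQ]
  · have hout : (2:ℝ) ^ P ≤ p.1 ∨ (2:ℝ) ^ P ≤ p.2 := by
      by_contra h
      rw [not_or, not_le, not_le] at h
      exact hpQ ⟨⟨h1, h.1⟩, h2, h.2⟩
    have hz : ∀ i, G i p = 0 := by
      intro i
      simp only [hG]
      rw [stepF_apply, if_neg]
      rintro ⟨-, -, e1, e2⟩
      have hP : (2:ℝ) ^ jj i * 2 ^ (P - jj i).toNat = (2:ℝ) ^ P := by
        rw [← zpow_natCast, ← zpow_add₀ (by norm_num)]
        congr 1
        have := hjP i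
        omega
      rw [Nat.floor_lt (div_nonneg h1 (two_zpow_pos _).le),
        div_lt_iff₀ (two_zpow_pos _)] at e1
      rw [Nat.floor_lt (div_nonneg h2 (two_zpow_pos _).le),
        div_lt_iff₀ (two_zpow_pos _)] at e2
      push_cast at e1 e2
      rcases hout with h | h <;> nlinarith
    have : (fun i => stepF (jj i) (P - jj i).toNat (a i) p) = fun _ => F p := by
      funext i
      rw [hbox p h1 h2 hout]
      exact hz i
    rw [this]
    exact tendsto_const_nhds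

end Vale.Agent.P075
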