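import Vale.Agent.P075.Defs

/-!
P075, analysis module: step inputs. The form on step functions over the grid of mesh `2^j`
equals `(2^j)^2` times the finite model.
-/

open MeasureTheory Set

noncomputable section

namespace Vale.Agent.P075

/-- The grid interval `[2^j x, 2^j (x+1))`. -/
def cell (j : ℤ) (x : ℕ) : Set ℝ := Ico ((2:ℝ) ^ j * x) ((2:ℝ) ^ j * (x + 1))

/-- The step function with value `a x y` on `cell j x ×ˢ cell j y`, `x, y < 2^m`. -/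
def stepF (j : ℤ) (m : ℕ) (a : ℕ → ℕ → ℝ) : ℝ × ℝ → ℝ := fun p =>
  ∑ x ∈ Finset.range (2 ^ m), ∑ y ∈ Finset.range (2 ^ m),
    (cell j x ×ˢ cell j y).indicator (fun _ => a x y) p

lemma two_zpow_pos (j : ℤ) : (0:ℝ) < 2 ^ j := zpow_pos (by norm_num) j

lemma mem_cell_iff {j : ℤ} {x : ℕ} {u : ℝ} :
    u ∈ cell j x ↔ 0 ≤ u ∧ ⌊u / 2 ^ j⌋₊ = x := by
  have h := two_zpow_pos j
  unfold cell
  constructor
  · intro hu
    have h0 : 0 ≤ u := le_trans (by positivity) hu.1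
    refine ⟨h0, (Nat.floor_eq_iff (div_nonneg h0 h.le)).2 ⟨?_, ?_⟩⟩
    · rw [le_div_iff₀ h]; linarith [hu.1]
    · rw [div_lt_iff₀ h]; linarith [hu.2]
  · rintro ⟨h0, hx⟩
    obtain ⟨h1, h2⟩ := (Nat.floor_eq_iff (div_nonneg h0 h.le)).1 hx
    rw [le_div_iff₀ h] at h1
    rw [div_lt_iff₀ h] at h2
    exact ⟨by linarith, by linarith⟩

lemma measurableSet_cell (j : ℤ) (x : ℕ) : MeasurableSet (cell j x) := measurableSet_Ico

lemma stepF_apply (j : ℤ) (m : ℕ) (a : ℕ → ℕ → ℝ) (p : ℝ × ℝ) :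
    stepF j m a p =
      if 0 ≤ p.1 ∧ 0 ≤ p.2 ∧ ⌊p.1 / 2 ^ j⌋₊ < 2 ^ m ∧ ⌊p.2 / 2 ^ j⌋₊ < 2 ^ m then
        a ⌊p.1 / 2 ^ j⌋₊ ⌊p.2 / 2 ^ j⌋₊ else 0 := by
  unfold stepF
  have hind : ∀ x y, (cell j x ×ˢ cell j y).indicator (fun _ => a x y) p =
      if (0 ≤ p.1 ∧ 0 ≤ p.2) ∧ ⌊p.1 / 2 ^ j⌋₊ = x ∧ ⌊p.2 / 2 ^ j⌋₊ = y then a x y else 0 := by
    intro x y
    classical
    rw [Set.indicator_apply]
    refine if_congr ?_ rfl rfl
    simp only [mem_prod, mem_cell_iff]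
    tauto
  simp only [hind]
  by_cases hp : 0 ≤ p.1 ∧ 0 ≤ p.2
  · simp only [hp, true_and, ite_and, Finset.sum_ite_eq, Finset.mem_range]
    split_ifs <;> simp_all
  · rw [if_neg (fun h => hp ⟨h.1, h.2.1⟩)]
    simp [hp]

lemma measurable_stepF (j : ℤ) (m : ℕ) (a : ℕ → ℕ → ℝ) : Measurable (stepF j m a) := by
  unfold stepF
  exact Finset.measurable_sum _ fun x _ => Finset.measurable_sum _ fun y _ =>
    measurable_const.indicator ((measurableSet_cell j x).prod (measurableSet_cell j y))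

lemma abs_stepF_le (j : ℤ) (m : ℕ) (a : ℕ → ℕ → ℝ) {B : ℝ} (hB : 0 ≤ B)
    (h : ∀ x y, |a x y| ≤ B) (p : ℝ × ℝ) : |stepF j m a p| ≤ B := by
  rw [stepF_apply]
  split_ifs
  · exact h _ _
  · simpa using hB

/-- A grid interval lies in one half of one interval of scale `j + l`. -/
lemma haar_eq_hS (j : ℤ) {l : ℕ} (hl : 1 ≤ l) (n : ℕ) {u : ℝ} {x : ℕ} (hu : u ∈ cell j x) :
    haar (j + (l:ℤ)) n u = if x / 2 ^ l = n then hS l x else 0 := by
  obtain ⟨h0, hx⟩ := mem_cell_iff.1 hu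
  obtain ⟨i, rfl⟩ : ∃ i, l = i + 1 := ⟨l - 1, by omega⟩
  have hd := two_zpow_pos j
  set H : ℕ := x / 2 ^ i with hH
  have hhalf : (2:ℝ) ^ (j + ((i + 1 : ℕ) : ℤ)) = 2 * ((2:ℝ) ^ j * 2 ^ i) := by
    rw [zpow_add₀ (by norm_num), zpow_natCast, pow_succ]; ring
  have hHu : ((2:ℝ) ^ j * 2 ^ i) * H ≤ u ∧ u < ((2:ℝ) ^ j * 2 ^ i) * (H + 1) := by
    have e : ⌊u / ((2:ℝ) ^ j * ((2 ^ i : ℕ) : ℝ))⌋₊ = H := by
      rw [← div_div, Nat.floor_div_natCast, hx]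
    obtain ⟨e1, e2⟩ := (Nat.floor_eq_iff (by positivity)).1 e
    have hpos : (0:ℝ) < (2:ℝ) ^ j * ((2 ^ i : ℕ) : ℝ) := by positivity
    rw [le_div_iff₀ hpos] at e1
    rw [div_lt_iff₀ hpos] at e2
    push_cast at e1 e2
    exact ⟨by linarith, by linarith⟩
  have hh : (0:ℝ) < (2:ℝ) ^ j * 2 ^ i := by positivity
  have hx2 : x / 2 ^ (i + 1) = H / 2 := by rw [hH, Nat.div_div_eq_div_mul, pow_succ]
  have key : ∀ q : ℕ, u ∈ Ico (((2:ℝ) ^ j * 2 ^ i) * q) (((2:ℝ) ^ j * 2 ^ i) * (q + 1)) ↔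
      H = q := by
    intro q
    constructor
    · intro hq
      have a1 : (H:ℝ) < (q:ℝ) + 1 := lt_of_mul_lt_mul_left (lt_of_le_of_lt hHu.1 hq.2) hh.le
      have a2 : (q:ℝ) < (H:ℝ) + 1 := lt_of_mul_lt_mul_left (lt_of_le_of_lt hq.1 hHu.2) hh.le
      have b1 : H < q + 1 := by exact_mod_cast a1
      have b2 : q < H + 1 := by exact_mod_cast a2
      omega
    · rintro rfl; exact hHu
  have e1 : Ico ((2:ℝ) ^ (j + ((i + 1 : ℕ) : ℤ)) * n)
      ((2:ℝ) ^ (j + ((i + 1 : ℕ) : ℤ)) * (n + 2⁻¹)) =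
      Ico (((2:ℝ) ^ j * 2 ^ i) * ((2 * n : ℕ) : ℝ))
        (((2:ℝ) ^ j * 2 ^ i) * (((2 * n : ℕ) : ℝ) + 1)) := by
    rw [hhalf]; push_cast; congr 1 <;> ring
  have e2 : Ico ((2:ℝ) ^ (j + ((i + 1 : ℕ) : ℤ)) * (n + 2⁻¹))
      ((2:ℝ) ^ (j + ((i + 1 : ℕ) : ℤ)) * (n + 1)) =
      Ico (((2:ℝ) ^ j * 2 ^ i) * ((2 * n + 1 : ℕ) : ℝ))
        (((2:ℝ) ^ j * 2 ^ i) * (((2 * n + 1 : ℕ) : ℝ) + 1)) := by
    rw [hhalf]; push_cast; congr 1 <;> ring
  unfold haar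
  rw [Pi.sub_apply, e1, e2]
  simp only [hS, Nat.add_sub_cancel, ← hH, hx2]
  classical
  simp only [Set.indicator_apply, key]
  split_ifs <;> first | (exfalso; omega) | norm_num

lemma haar_eq_zero_of_notMem {k : ℤ} {n : ℕ} {u : ℝ}
    (hu : u ∉ Ico ((2:ℝ) ^ k * n) ((2:ℝ) ^ k * (n + 1))) : haar k n u = 0 := by
  have h := two_zpow_pos k
  have h1 : u ∉ Ico ((2:ℝ) ^ k * n) ((2:ℝ) ^ k * (n + 2⁻¹)) := fun hh =>
    hu ⟨hh.1, lt_of_lt_of_le hh.2 (by
      have : (0:ℝ) ≤ (2:ℝ) ^ k * 2⁻¹ := by positivity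
      nlinarith)⟩
  have h2 : u ∉ Ico ((2:ℝ) ^ k * (n + 2⁻¹)) ((2:ℝ) ^ k * (n + 1)) := fun hh =>
    hu ⟨le_trans (by nlinarith) hh.1, hh.2⟩
  simp [haar, Set.indicator_of_notMem h1, Set.indicator_of_notMem h2]

lemma haar_eq_zero_of_neg {k : ℤ} {n : ℕ} {u : ℝ} (hu : u < 0) : haar k n u = 0 :=
  haar_eq_zero_of_notMem fun h => absurd h.1 (not_le.2 (lt_of_lt_of_le hu
    (mul_nonneg (two_zpow_pos k).le (Nat.cast_nonneg n))))

lemma abs_haar_le (k : ℤ) (n : ℕ) (u : ℝ) : |haar k n u| ≤ 1 := by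
  classical
  unfold haar
  simp only [Pi.sub_apply, Set.indicator_apply]
  split_ifs <;> norm_num

lemma measurable_haar (k : ℤ) (n : ℕ) : Measurable (haar k n) :=
  (measurable_const.indicator measurableSet_Ico).sub (measurable_const.indicator measurableSet_Ico)

lemma volume_real_cell (j : ℤ) (x : ℕ) : volume.real (cell j x) = (2:ℝ) ^ j := by
  have h := two_zpow_pos j
  rw [cell, Real.volume_real_Ico_of_le (by nlinarith)]; ring

lemma integral_indicator_cube (j : ℤ) (x y z : ℕ) (c : ℝ) :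
    ∫ p : ℝ × ℝ × ℝ, (cell j x ×ˢ cell j y ×ˢ cell j z).indicator (fun _ => c) p =
      ((2:ℝ) ^ j) ^ 3 * c := by
  rw [integral_indicator_const _ ((measurableSet_cell j x).prod
    ((measurableSet_cell j y).prod (measurableSet_cell j z)))]
  simp only [Measure.volume_eq_prod, measureReal_prod_prod, volume_real_cell, smul_eq_mul]
  ring

lemma integrable_indicator_cube (j : ℤ) (x y z : ℕ) (c : ℝ) :
    Integrable ((cell j x ×ˢ cell j y ×ˢ cell j z).indicator fun _ => c) := by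
  refine (integrableOn_const ?_).integrable_indicator ((measurableSet_cell j x).prod
    ((measurableSet_cell j y).prod (measurableSet_cell j z)))
  simp only [Measure.volume_eq_prod, Measure.prod_prod, cell, Real.volume_Ico]
  exact ENNReal.mul_ne_top ENNReal.ofReal_ne_top
    (ENNReal.mul_ne_top ENNReal.ofReal_ne_top ENNReal.ofReal_ne_top)

/-- One summand of the form on step inputs. -/
lemma LTerm_stepF (j : ℤ) (m : ℕ) {l : ℕ} (hl : 1 ≤ l) (a b c : ℕ → ℕ → ℝ) (n₀ n₁ n₂ : ℕ) :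
    LTerm (j + (l:ℤ)) (stepF j m a) (stepF j m b) (stepF j m c) n₀ n₁ n₂ =
      ((2:ℝ) ^ j) ^ 2 * (((2:ℝ) ^ l)⁻¹ * ∑ x ∈ Finset.range (2 ^ m),
        ∑ y ∈ Finset.range (2 ^ m), ∑ z ∈ Finset.range (2 ^ m),
          if x / 2 ^ l = n₀ ∧ y / 2 ^ l = n₁ ∧ z / 2 ^ l = n₂ then
            a x y * b y z * c z x * (hS l x * hS l y * hS l z) else 0) := by
  set v : ℕ → ℕ → ℕ → ℝ := fun x y z => if x / 2 ^ l = n₀ ∧ y / 2 ^ l = n₁ ∧ z / 2 ^ l = n₂ then
    a x y * b y z * c z x * (hS l x * hS l y * hS l z) else 0 with hv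
  have hpt : ∀ p : ℝ × ℝ × ℝ,
      stepF j m a (p.1, p.2.1) * stepF j m b (p.2.1, p.2.2) * stepF j m c (p.2.2, p.1) *
        (haar (j + (l:ℤ)) n₀ p.1 * haar (j + (l:ℤ)) n₁ p.2.1 * haar (j + (l:ℤ)) n₂ p.2.2) =
      ∑ x ∈ Finset.range (2 ^ m), ∑ y ∈ Finset.range (2 ^ m), ∑ z ∈ Finset.range (2 ^ m),
        (cell j x ×ˢ cell j y ×ˢ cell j z).indicator (fun _ => v x y z) p := by
    rintro ⟨p, q, r⟩
    classical
    simp only [stepF_apply, Set.indicator_apply, mem_prod, mem_cell_iff]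
    by_cases h : 0 ≤ p ∧ 0 ≤ q ∧ 0 ≤ r
    · obtain ⟨hp, hq, hr⟩ := h
      rw [haar_eq_hS j hl n₀ (mem_cell_iff.2 ⟨hp, rfl⟩),
        haar_eq_hS j hl n₁ (mem_cell_iff.2 ⟨hq, rfl⟩),
        haar_eq_hS j hl n₂ (mem_cell_iff.2 ⟨hr, rfl⟩)]
      simp only [hp, hq, hr, true_and, ite_and, Finset.sum_ite_eq, Finset.sum_ite_irrel,
        Finset.sum_const_zero, Finset.mem_range]
      simp only [hv, ite_and]
      split_ifs <;> simp
    · have hz : ∀ x y z : ℕ, ¬((0 ≤ p ∧ ⌊p / 2 ^ j⌋₊ = x) ∧ (0 ≤ q ∧ ⌊q / 2 ^ j⌋₊ = y) ∧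
          0 ≤ r ∧ ⌊r / 2 ^ j⌋₊ = z) := fun x y z hh => h ⟨hh.1.1, hh.2.1.1, hh.2.2.1⟩
      simp only [hz, if_false, Finset.sum_const_zero]
      rcases not_and_or.1 h with h' | h'
      · simp [h']
      · rcases not_and_or.1 h' with h'' | h'' <;> simp [h'']
  have hI : ∫ p : ℝ × ℝ × ℝ,
      stepF j m a (p.1, p.2.1) * stepF j m b (p.2.1, p.2.2) * stepF j m c (p.2.2, p.1) *
        (haar (j + (l:ℤ)) n₀ p.1 * haar (j + (l:ℤ)) n₁ p.2.1 * haar (j + (l:ℤ)) n₂ p.2.2) =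
      ((2:ℝ) ^ j) ^ 3 * ∑ x ∈ Finset.range (2 ^ m), ∑ y ∈ Finset.range (2 ^ m),
        ∑ z ∈ Finset.range (2 ^ m), v x y z := by
    simp only [hpt]
    have hint := fun x y z => integrable_indicator_cube j x y z (v x y z)
    rw [integral_finsetSum _ fun x _ => integrable_finsetSum _ fun y _ =>
      integrable_finsetSum _ fun z _ => hint x y z]
    simp only [Finset.mul_sum]
    refine Finset.sum_congr rfl fun x _ => ?_
    rw [integral_finsetSum _ fun y _ => integrable_finsetSum _ fun z _ => hint x y z]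
    refine Finset.sum_congr rfl fun y _ => ?_
    rw [integral_finsetSum _ fun z _ => hint x y z]
    exact Finset.sum_congr rfl fun z _ => integral_indicator_cube j x y z _
  unfold LTerm
  rw [hI, zpow_add₀ (by norm_num : (2:ℝ) ≠ 0), zpow_natCast, mul_inv]
  have := (two_zpow_pos j).ne'
  simp only [hv]
  field_simp

/-- One scale of the form on step inputs is the finite model. -/
lemma tsum_LTerm_stepF (j : ℤ) (m : ℕ) {l : ℕ} (hl : 1 ≤ l) (a b c : ℕ → ℕ → ℝ) :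
    ∑' t : XorTriple,
      LTerm (j + (l:ℤ)) (stepF j m a) (stepF j m b) (stepF j m c) t.1.1 t.1.2.1 t.1.2.2 =
      ((2:ℝ) ^ j) ^ 2 * term l m a b c := by
  classical
  set T : Finset XorTriple := (Finset.range (2 ^ m) ×ˢ Finset.range (2 ^ m) ×ˢ
    Finset.range (2 ^ m)).subtype _ with hT
  have hmem : ∀ t : XorTriple,
      t ∈ T ↔ t.1.1 < 2 ^ m ∧ t.1.2.1 < 2 ^ m ∧ t.1.2.2 < 2 ^ m := fun t => by
    simp [hT, Finset.mem_subtype]
  have hlt : ∀ x, x < 2 ^ m → x / 2 ^ l < 2 ^ m := fun x hx =>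
    lt_of_le_of_lt (Nat.div_le_self _ _) hx
  rw [tsum_eq_sum (s := T)]
  · simp only [LTerm_stepF j m hl, term, ← Finset.mul_sum]
    congr 2
    rw [Finset.sum_comm]
    refine Finset.sum_congr rfl fun x hx => ?_
    rw [Finset.sum_comm]
    refine Finset.sum_congr rfl fun y hy => ?_
    rw [Finset.sum_comm]
    refine Finset.sum_congr rfl fun z hz => ?_
    rw [Finset.mem_range] at hx hy hz
    split_ifs with h
    · rw [Finset.sum_eq_single (⟨(x / 2 ^ l, y / 2 ^ l, z / 2 ^ l), h⟩ : XorTriple)]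
      · simp
      · intro t _ ht
        rw [if_neg]
        rintro ⟨e0, e1, e2⟩
        exact ht (Subtype.ext (by simp [e0, e1, e2]))
      · intro hn
        exact absurd ((hmem _).2 ⟨hlt x hx, hlt y hy, hlt z hz⟩) hn
    · refine Finset.sum_eq_zero fun t _ => if_neg ?_
      rintro ⟨e0, e1, e2⟩
      exact h (by rw [e0, e1, e2]; exact t.2)
  · intro t ht
    rw [LTerm_stepF j m hl, Finset.sum_eq_zero, mul_zero, mul_zero]
    intro x hx
    refine Finset.sum_eq_zero fun y hy => Finset.sum_eq_zero fun z hz => if_neg ?_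
    rintro ⟨e0, e1, e2⟩
    rw [Finset.mem_range] at hx hy hz
    exact ht ((hmem t).2 ⟨e0 ▸ hlt x hx, e1 ▸ hlt y hy, e2 ▸ hlt z hz⟩)

/-- The cubed norm of a step input. -/
lemma integral_abs_stepF (j : ℤ) (m : ℕ) (a : ℕ → ℕ → ℝ) :
    ∫ p in Ici (0:ℝ) ×ˢ Ici (0:ℝ), |stepF j m a p| ^ 3 = ((2:ℝ) ^ j) ^ 2 * cube m a := by
  have hpt : ∀ p : ℝ × ℝ, |stepF j m a p| ^ 3 = stepF j m (fun x y => |a x y| ^ 3) p := fun p => by
    simp only [stepF_apply]
    split_ifs <;> simp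
  rw [setIntegral_eq_integral_of_forall_compl_eq_zero fun p hp => by
    rw [hpt, stepF_apply, if_neg]
    rintro ⟨h1, h2, -, -⟩
    exact hp ⟨h1, h2⟩]
  simp only [hpt]
  unfold stepF
  have hint : ∀ x y, Integrable ((cell j x ×ˢ cell j y).indicator fun _ => |a x y| ^ 3) := by
    intro x y
    refine (integrableOn_const ?_).integrable_indicator
      ((measurableSet_cell j x).prod (measurableSet_cell j y))
    simp only [Measure.volume_eq_prod, Measure.prod_prod, cell, Real.volume_Ico]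
    exact ENNReal.mul_ne_top ENNReal.ofReal_ne_top ENNReal.ofReal_ne_top
  rw [integral_finsetSum _ fun x _ => integrable_finsetSum _ fun y _ => hint x y, cube,
    Finset.mul_sum]
  refine Finset.sum_congr rfl fun x _ => ?_
  rw [integral_finsetSum _ fun y _ => hint x y, Finset.mul_sum]
  refine Finset.sum_congr rfl fun y _ => ?_
  rw [integral_indicator_const _ ((measurableSet_cell j x).prod (measurableSet_cell j y))]
  simp only [Measure.volume_eq_prod, measureReal_prod_prod, volume_real_cell, smul_eq_mul]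
  ring

/-- The bound on step inputs. -/
lemma abs_dyadicForm_stepF_le {C : ℝ}
    (hC : ∀ (m : ℕ) (ε : ℕ → ℝ), (∀ l, |ε l| ≤ 1) → ∀ a b c : ℕ → ℕ → ℝ,
      |∑ l ∈ Finset.Icc 1 m, ε l * term l m a b c| ≤ C * (cube m a + cube m b + cube m c))
    (S : Finset ℤ) (ε : ℤ → ℝ) (hε : ∀ k, |ε k| ≤ 1) (j : ℤ) (m : ℕ)
    (hS' : ∀ k ∈ S, j + 1 ≤ k ∧ k ≤ j + (m:ℤ)) (a b c : ℕ → ℕ → ℝ) :
    |dyadicForm S ε (stepF j m a) (stepF j m b) (stepF j m c)| ≤
      C * ((∫ p in Ici (0:ℝ) ×ˢ Ici (0:ℝ), |stepF j m a p| ^ 3) +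
        (∫ p in Ici (0:ℝ) ×ˢ Ici (0:ℝ), |stepF j m b p| ^ 3) +
        ∫ p in Ici (0:ℝ) ×ˢ Ici (0:ℝ), |stepF j m c p| ^ 3) := by
  classical
  set ε' : ℕ → ℝ := fun l => if j + (l:ℤ) ∈ S then ε (j + l) else 0 with hε'
  have hb : ∀ l, |ε' l| ≤ 1 := fun l => by
    simp only [hε']
    split_ifs
    · exact hε _
    · simp
  have heq : dyadicForm S ε (stepF j m a) (stepF j m b) (stepF j m c) =
      ((2:ℝ) ^ j) ^ 2 * ∑ l ∈ Finset.Icc 1 m, ε' l * term l m a b c := by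
    unfold dyadicForm
    rw [Finset.mul_sum]
    have hrest : ∑ l ∈ Finset.Icc 1 m, ((2:ℝ) ^ j) ^ 2 * (ε' l * term l m a b c) =
        ∑ l ∈ (Finset.Icc 1 m).filter (fun l => j + ((l:ℕ):ℤ) ∈ S),
          ((2:ℝ) ^ j) ^ 2 * (ε (j + l) * term l m a b c) := by
      rw [Finset.sum_filter]
      refine Finset.sum_congr rfl fun l _ => ?_
      simp only [hε']
      split_ifs <;> simp
    rw [hrest]
    symm
    refine Finset.sum_bij' (fun l _ => j + ((l:ℕ):ℤ)) (fun k _ => (k - j).toNat) ?_ ?_ ?_ ?_ ?_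
    · intro l hl
      exact (Finset.mem_filter.1 hl).2
    · intro k hk
      have := hS' k hk
      refine Finset.mem_filter.2 ⟨Finset.mem_Icc.2 ⟨by omega, by omega⟩, ?_⟩
      rwa [show j + ((k - j).toNat : ℤ) = k by omega]
    · intro l _; omega
    · intro k hk
      have := hS' k hk
      omega
    · intro l hl
      have := (Finset.mem_Icc.1 (Finset.mem_filter.1 hl).1).1
      rw [tsum_LTerm_stepF j m this]
      ring
  rw [heq, abs_mul, abs_of_nonneg (sq_nonneg _)]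
  simp only [integral_abs_stepF]
  calc ((2:ℝ) ^ j) ^ 2 * |∑ l ∈ Finset.Icc 1 m, ε' l * term l m a b c|
      ≤ ((2:ℝ) ^ j) ^ 2 * (C * (cube m a + cube m b + cube m c)) :=
        mul_le_mul_of_nonneg_left (hC m ε' hb a b c) (sq_nonneg _)
    _ = _ := by ring

end Vale.Agent.P075
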